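import Vale.Agent.P251.St.Chrom

/-!
# P261: towers of self maps

`SelfMapTower T p N V` : `V` is obtained from the cofibre of `p` on the sphere by taking
successively cofibres of self maps `f : Σ^d V ⟶ V` of degrees `d ≥ 1`, and `N` is the sum of the
numbers `d + 1`.
-/

open CategoryTheory MonoidalCategory Limits Pretriangulated

namespace Vale.Agent.P261.H476

open Vale.Agent.P251.St Vale.Agent.P251.St.SHCat

/-- `V` is obtained from the cofibre of `p : S ⟶ S` by taking successively cofibres of self maps
`f : Σ^d V ⟶ V` of degrees `d ≥ 1`, and `N` is the sum of the numbers `d + 1`. -/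
inductive SelfMapTower (T : SHCat) (p : ℕ) : ℤ → T.C → Prop
  | modp {C : T.C} (i : Hom T.one C) (δ : Hom C (sus T.one)) :
      Dist (zmul p (ident T.one)) i δ → SelfMapTower T p 0 C
  | cone {N d : ℤ} {V V' : T.C} (f : Hom (V⟦d⟧) V) (j : Hom V V') (δ : Hom V' (sus (V⟦d⟧))) :
      SelfMapTower T p N V → 1 ≤ d → Dist f j δ → SelfMapTower T p (N + (d + 1)) V'

end Vale.Agent.P261.H476
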