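import Vale.Agent.P251.S.Loc
import Vale.Agent.P251.S.TensorShift

/-!
# P261: towers of self maps and windows of finiteness

`GTow p N V` : `V` is obtained from `S/p` by successive cofibres of self maps of positive degrees
`d`, and `N = 1 + ∑ (d + 1)`. If `X ⊗ V = 0` and `p` has finite kernel and cokernel on `π_t X` for
`N - 1` consecutive `t`, then it has finite cokernel on `π_t X` for all `t`.
-/

set_option linter.unusedSectionVars false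

open CategoryTheory MonoidalCategory Limits Pretriangulated

universe v u

namespace Vale.Agent.P261.H476

open Vale.Agent.P251.T Vale.Agent.P251.S

/-! ### Algebra -/

/-- finite middle term -/
lemma fin_mid {A B C : Type*} [AddCommGroup B] [AddCommGroup C] (f : A → B) (g : B →+ C)
    (hex : ∀ b, g b = 0 → ∃ a, f a = b) [Finite A] [Finite C] : Finite B := by
  have h : (Set.univ : Set B).Finite := by
    refine Set.Finite.of_finite_fibers (fun b => g b) (Set.toFinite _) fun c _ => ?_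
    by_cases hc : ∃ b0, g b0 = c
    · obtain ⟨b0, hb0⟩ := hc
      refine (Set.finite_range fun a => b0 + f a).subset ?_
      rintro b ⟨-, hb⟩
      have h1 : g (b - b0) = 0 := by
        rw [map_sub, hb0]
        simpa [sub_eq_zero] using hb
      obtain ⟨a, ha⟩ := hex _ h1
      exact ⟨a, by simp [ha]⟩
    · refine Set.Finite.subset Set.finite_empty ?_
      rintro b ⟨-, hb⟩
      exact hc ⟨b, by simpa using hb⟩
  exact Set.finite_univ_iff.1 h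

/-- periodic predicates -/
lemma periodic_all {P : ℤ → Prop} {d c e : ℤ} (hd : 1 ≤ d) (hP : ∀ t, P t ↔ P (t - d))
    (hl : c + d ≤ e + 1) (hw : ∀ t, c ≤ t → t ≤ e → P t) (t : ℤ) : P t := by
  have key : ∀ (k : ℤ) (s : ℤ), P s → P (s + k * d) := by
    intro k
    induction k with
    | zero => intro s hs; simpa using hs
    | succ k ih =>
      intro s hs
      rw [hP]
      have := ih s hs
      convert this using 1
      ring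
    | pred k ih =>
      intro s hs
      have := ih s hs
      rw [hP] at this
      convert this using 1
      ring
  have h0 : 0 ≤ (t - c) % d := Int.emod_nonneg _ (by omega)
  have h1 : (t - c) % d < d := Int.emod_lt_of_pos _ (by omega)
  have h2 := key ((t - c) / d) (c + (t - c) % d) (hw _ (by omega) (by omega))
  have h3 : (t - c) % d + d * ((t - c) / d) = t - c := Int.emod_add_mul_ediv (t - c) d
  have h4 : c + (t - c) % d + (t - c) / d * d = t := by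
    have : (t - c) / d * d = d * ((t - c) / d) := mul_comm _ _
    rw [this]
    omega
  rwa [h4] at h2

variable {T : Type u} [Category.{v} T] [Preadditive T] [HasZeroObject T] [HasShift T ℤ]
  [∀ n : ℤ, (shiftFunctor T n).Additive] [Pretriangulated T]

/-- composition with `f` on `Hom(A, -)` -/
def post (A : T) {Y Z : T} (f : Y ⟶ Z) : (A ⟶ Y) →+ (A ⟶ Z) where
  toFun g := g ≫ f
  map_zero' := zero_comp
  map_add' _ _ := Preadditive.add_comp _ _ _ _ _ _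

section mon

variable [MonoidalCategory T]

/-- `π_t Y` is finite. -/
def Fn (t : ℤ) (Y : T) : Prop := Finite ((𝟙_ T)⟦t⟧ ⟶ Y)

lemma Fn.of_iso {t : ℤ} {Y Z : T} (h : Fn t Y) (e : Y ≅ Z) : Fn t Z := by
  have : Finite ((𝟙_ T)⟦t⟧ ⟶ Y) := h
  exact Finite.of_surjective (fun g : (𝟙_ T)⟦t⟧ ⟶ Y => g ≫ e.hom) fun g => ⟨g ≫ e.inv, by simp⟩

lemma Fn.of_isZero {t : ℤ} {Y : T} (h : IsZero Y) : Fn t Y :=
  haveI : Subsingleton ((𝟙_ T)⟦t⟧ ⟶ Y) := ⟨fun _ _ => h.eq_of_tgt _ _⟩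
  (inferInstance : Finite ((𝟙_ T)⟦t⟧ ⟶ Y))

/-- `π_t (Y⟦d⟧) = π_{t-d} Y` -/
noncomputable def shiftHomEquiv (t d : ℤ) (Y : T) :
    ((𝟙_ T)⟦t - d⟧ ⟶ Y) ≃ ((𝟙_ T)⟦t⟧ ⟶ Y⟦d⟧) :=
  ((Functor.FullyFaithful.ofFullyFaithful (shiftFunctor T d)).homEquiv).trans
    (((shiftFunctorAdd' T (t - d) d t (by ring)).app (𝟙_ T)).symm.homCongr (Iso.refl _))

lemma fn_shift {t d : ℤ} {Y : T} : Fn t (Y⟦d⟧) ↔ Fn (t - d) Y :=
  ⟨fun h => by
    have : Finite ((𝟙_ T)⟦t⟧ ⟶ Y⟦d⟧) := h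
    exact Finite.of_equiv _ (shiftHomEquiv t d Y).symm,
   fun h => by
    have : Finite ((𝟙_ T)⟦t - d⟧ ⟶ Y) := h
    exact Finite.of_equiv _ (shiftHomEquiv t d Y)⟩

lemma fn_two {Δ : Triangle T} (hΔ : Δ ∈ distTriang T) {t : ℤ} (h1 : Fn t Δ.obj₁)
    (h3 : Fn t Δ.obj₃) : Fn t Δ.obj₂ := by
  have : Finite ((𝟙_ T)⟦t⟧ ⟶ Δ.obj₁) := h1
  have : Finite ((𝟙_ T)⟦t⟧ ⟶ Δ.obj₃) := h3
  exact fin_mid (fun g : (𝟙_ T)⟦t⟧ ⟶ Δ.obj₁ => g ≫ Δ.mor₁) (post _ Δ.mor₂) fun b hb => by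
    obtain ⟨a, ha⟩ := Triangle.coyoneda_exact₂ Δ hΔ b hb
    exact ⟨a, ha.symm⟩

lemma fn_three {Δ : Triangle T} (hΔ : Δ ∈ distTriang T) {t : ℤ} (h2 : Fn t Δ.obj₂)
    (h1 : Fn (t - 1) Δ.obj₁) : Fn t Δ.obj₃ :=
  fn_two (rot_of_distTriang _ hΔ) h2 (fn_shift.2 h1)

lemma fn_one {Δ : Triangle T} (hΔ : Δ ∈ distTriang T) {t : ℤ} (h2 : Fn t Δ.obj₂)
    (h3 : Fn (t + 1) Δ.obj₃) : Fn t Δ.obj₁ := by
  have h := fn_two (rot_of_distTriang _ (rot_of_distTriang _ hΔ)) (t := t + 1) h3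
    (fn_shift.2 (by simpa using h2))
  have h' : Fn (t + 1) (Δ.obj₁⟦(1 : ℤ)⟧) := h
  rw [fn_shift] at h'
  simpa using h'

end mon

/-! ### Towers -/

variable [MonoidalCategory T] [SymmetricCategory T] [TensorTriangulated T]

/-- `V` is obtained from the cofibre of `p` on the unit by taking successively cofibres of self
maps `f : V⟦d⟧ ⟶ V` of positive degrees `d`, and `N = 1 + ∑ (d + 1)`. -/
inductive GTow (p : ℕ) : ℤ → T → Prop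
  | one {C : T} {i : 𝟙_ T ⟶ C} {δ : C ⟶ (𝟙_ T)⟦(1 : ℤ)⟧}
      (h : Triangle.mk ((p : ℤ) • 𝟙 (𝟙_ T)) i δ ∈ distTriang T) : GTow p 1 C
  | succ {N d : ℤ} {V V' : T} (H : GTow p N V) (hd : 1 ≤ d) (f : V⟦d⟧ ⟶ V) (j : V ⟶ V')
      (δ : V' ⟶ (V⟦d⟧)⟦(1 : ℤ)⟧) (h : Triangle.mk f j δ ∈ distTriang T) : GTow p (N + d + 1) V'

/-- `X ⊗ Y⟦d⟧ ≅ (X ⊗ Y)⟦d⟧` -/
noncomputable def tsh (X Y : T) (d : ℤ) : X ⊗ (Y⟦d⟧) ≅ (X ⊗ Y)⟦d⟧ :=
  ((tensorLeft X).commShiftIso d).app Y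

/-- `X ⊗ V` is local if `X` is. -/
theorem GTow.isLocal {p : ℕ} {K X : T} (hX : IsLocal K X) {N : ℤ} {V : T} (hV : GTow p N V) :
    IsLocal K (X ⊗ V) := by
  induction hV with
  | one h =>
    exact IsLocal.ext₃ (dist_whiskerLeft X h) (hX.of_iso (ρ_ X).symm) (hX.of_iso (ρ_ X).symm)
  | @succ N d V V' H hd f j δ h ih =>
    exact IsLocal.ext₃ (dist_whiskerLeft X h) ((ih.shift d).of_iso (tsh X V d).symm) ih

theorem GTow.isZero {p : ℕ} {K X : T} (hX : IsLocal K X) {N : ℤ} {V : T} (hV : GTow p N V)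
    (hK : IsZero (K ⊗ V)) : IsZero (X ⊗ V) :=
  (hV.isLocal hX).isZero (Acyclic.tensor_left hK X)

/-- `p` has finite cokernel. -/
def Cok (p : ℕ) (A : Type*) [AddCommGroup A] : Prop :=
  Finite (A ⧸ (zsmulAddGroupHom (p : ℤ) : A →+ A).range)

/-- `p` has finite kernel. -/
def Ker (p : ℕ) (A : Type*) [AddCommGroup A] : Prop := Finite {a : A // (p : ℤ) • a = 0}

lemma p_whisker (p : ℕ) (X : T) :
    X ◁ ((p : ℤ) • 𝟙 (𝟙_ T)) = (p : ℤ) • 𝟙 (X ⊗ 𝟙_ T) := by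
  have h := (tensorLeft X).map_zsmul (f := 𝟙 (𝟙_ T)) (r := (p : ℤ))
  simpa using h

lemma Cok.of_equiv {p : ℕ} {A B : Type*} [AddCommGroup A] [AddCommGroup B] (e : A ≃+ B)
    (h : Cok p A) : Cok p B := by
  have : Finite (A ⧸ (zsmulAddGroupHom (p : ℤ) : A →+ A).range) := h
  refine Finite.of_surjective (QuotientAddGroup.lift (zsmulAddGroupHom (p : ℤ) : A →+ A).range
    ((QuotientAddGroup.mk' (zsmulAddGroupHom (p : ℤ) : B →+ B).range).comp e.toAddMonoidHom)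
    ?_) ?_
  · rintro _ ⟨a, rfl⟩
    rw [AddMonoidHom.mem_ker]
    change (QuotientAddGroup.mk (e ((p : ℤ) • a)) :
      B ⧸ (zsmulAddGroupHom (p : ℤ) : B →+ B).range) = 0
    rw [QuotientAddGroup.eq_zero_iff, map_zsmul]
    exact ⟨e a, rfl⟩
  · intro b
    obtain ⟨b, rfl⟩ := QuotientAddGroup.mk_surjective b
    exact ⟨QuotientAddGroup.mk (e.symm b), by simp⟩

lemma Ker.of_equiv {p : ℕ} {A B : Type*} [AddCommGroup A] [AddCommGroup B] (e : A ≃+ B)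
    (h : Ker p A) : Ker p B := by
  have : Finite {a : A // (p : ℤ) • a = 0} := h
  exact Finite.of_injective
    (fun b : {b : B // (p : ℤ) • b = 0} =>
      (⟨e.symm b.1, by rw [← map_zsmul, b.2, map_zero]⟩ : {a : A // (p : ℤ) • a = 0}))
    fun b c h => Subtype.ext (e.symm.injective (congrArg Subtype.val h))

lemma fin_mid_mod {A B C : Type*} [AddCommGroup A] [AddCommGroup B] [AddCommGroup C] {p : ℕ}
    (f : A →+ B) (g : B →+ C) (hex : ∀ b, g b = 0 → ∃ a, f a = b)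
    (hf : ∀ a, f ((p : ℤ) • a) = 0) (hg : ∀ b, (p : ℤ) • g b = 0) (hc : Cok p A)
    (hk : Ker p C) : Finite B := by
  have : Finite (A ⧸ (zsmulAddGroupHom (p : ℤ) : A →+ A).range) := hc
  have h1 : Finite (zsmulAddGroupHom (p : ℤ) : C →+ C).ker := by
    have : Finite {a : C // (p : ℤ) • a = 0} := hk
    exact Finite.of_injective
      (fun c : (zsmulAddGroupHom (p : ℤ) : C →+ C).ker =>
        (⟨c.1, c.2⟩ : {a : C // (p : ℤ) • a = 0}))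
      fun b c h => Subtype.ext (congrArg Subtype.val h)
  refine fin_mid (QuotientAddGroup.lift (zsmulAddGroupHom (p : ℤ) : A →+ A).range f ?_)
    (g.codRestrict (zsmulAddGroupHom (p : ℤ) : C →+ C).ker fun b => hg b) ?_
  · rintro _ ⟨a, rfl⟩
    exact hf a
  · intro b hb
    obtain ⟨a, ha⟩ := hex b (congrArg Subtype.val hb)
    exact ⟨QuotientAddGroup.mk a, ha⟩

/-- postcomposition with an isomorphism -/
def postEquiv (A : T) {Y Z : T} (e : Y ≅ Z) : (A ⟶ Y) ≃+ (A ⟶ Z) where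
  toFun g := g ≫ e.hom
  invFun g := g ≫ e.inv
  left_inv g := by simp
  right_inv g := by simp
  map_add' _ _ := Preadditive.add_comp _ _ _ _ _ _

/-- `π_t (Y⟦d⟧) = π_{t-d} Y`, additively -/
noncomputable def shiftHomAdd (t d : ℤ) (Y : T) :
    ((𝟙_ T)⟦t - d⟧ ⟶ Y) ≃+ ((𝟙_ T)⟦t⟧ ⟶ Y⟦d⟧) where
  __ := shiftHomEquiv t d Y
  map_add' a b := by
    change ((shiftFunctorAdd' T (t - d) d t (by ring)).app (𝟙_ T)).symm.inv ≫
      (shiftFunctor T d).map (a + b) ≫ 𝟙 _ = _ ≫ (shiftFunctor T d).map a ≫ 𝟙 _ +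
        _ ≫ (shiftFunctor T d).map b ≫ 𝟙 _
    rw [Functor.map_add, Preadditive.add_comp, Preadditive.comp_add]

/-- finiteness of `π_t (X ⊗ S/p)` -/
theorem fn_base {p : ℕ} {X C : T} {i : 𝟙_ T ⟶ C} {δ : C ⟶ (𝟙_ T)⟦(1 : ℤ)⟧}
    (h : Triangle.mk ((p : ℤ) • 𝟙 (𝟙_ T)) i δ ∈ distTriang T) {t : ℤ}
    (hc : Cok p ((𝟙_ T)⟦t⟧ ⟶ X)) (hk : Ker p ((𝟙_ T)⟦t - 1⟧ ⟶ X)) : Fn t (X ⊗ C) := by
  have hΔ := dist_whiskerLeft X h
  have hc' : Cok p ((𝟙_ T)⟦t⟧ ⟶ X ⊗ 𝟙_ T) := hc.of_equiv (postEquiv _ (ρ_ X).symm)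
  have hk' : Ker p ((𝟙_ T)⟦t⟧ ⟶ (X ⊗ 𝟙_ T)⟦(1 : ℤ)⟧) :=
    (hk.of_equiv (postEquiv _ (ρ_ X).symm)).of_equiv (shiftHomAdd t 1 _)
  refine fin_mid_mod (p := p) (post _ (X ◁ i))
    (post _ ((X ◁ δ) ≫ ((tensorLeft X).commShiftIso (1 : ℤ)).hom.app (𝟙_ T))) ?_ ?_ ?_ hc' hk'
  · intro b hb
    obtain ⟨a, ha⟩ := Triangle.coyoneda_exact₃ _ hΔ b hb
    exact ⟨a, ha.symm⟩
  · intro a
    have h1 : (X ◁ ((p : ℤ) • 𝟙 (𝟙_ T))) ≫ (X ◁ i) = 0 := comp_distTriang_mor_zero₁₂ _ hΔ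
    rw [p_whisker] at h1
    change ((p : ℤ) • a) ≫ (X ◁ i) = 0
    rw [Preadditive.zsmul_comp, Category.id_comp] at h1
    rw [Preadditive.zsmul_comp, ← Preadditive.comp_zsmul, h1, comp_zero]
  · intro b
    have e : (X ◁ ((p : ℤ) • 𝟙 (𝟙_ T)))⟦(1 : ℤ)⟧' = (p : ℤ) • 𝟙 ((X ⊗ 𝟙_ T)⟦(1 : ℤ)⟧) := by
      rw [p_whisker, Functor.map_zsmul, CategoryTheory.Functor.map_id]
    have h1 : ((X ◁ δ) ≫ ((tensorLeft X).commShiftIso (1 : ℤ)).hom.app (𝟙_ T)) ≫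
      (X ◁ ((p : ℤ) • 𝟙 (𝟙_ T)))⟦(1 : ℤ)⟧' = 0 := comp_distTriang_mor_zero₃₁ _ hΔ
    have h2 : ((X ◁ δ) ≫ ((tensorLeft X).commShiftIso (1 : ℤ)).hom.app (𝟙_ T)) ≫
        ((p : ℤ) • 𝟙 ((X ⊗ 𝟙_ T)⟦(1 : ℤ)⟧)) = 0 := by
      rw [← e]
      exact h1
    have h3 : ∀ m : X ⊗ C ⟶ (X ⊗ 𝟙_ T)⟦(1 : ℤ)⟧, m ≫ ((p : ℤ) • 𝟙 ((X ⊗ 𝟙_ T)⟦(1 : ℤ)⟧)) = 0 →
        (p : ℤ) • (b ≫ m) = 0 := by
      intro m hm
      have h4 : b ≫ (m ≫ ((p : ℤ) • 𝟙 ((X ⊗ 𝟙_ T)⟦(1 : ℤ)⟧))) = 0 := by rw [hm, comp_zero]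
      rwa [Preadditive.comp_zsmul, Category.comp_id, Preadditive.comp_zsmul] at h4
    exact h3 _ h2

theorem cok_base {p : ℕ} {X C : T} {i : 𝟙_ T ⟶ C} {δ : C ⟶ (𝟙_ T)⟦(1 : ℤ)⟧}
    (h : Triangle.mk ((p : ℤ) • 𝟙 (𝟙_ T)) i δ ∈ distTriang T) {t : ℤ}
    (hf : Fn t (X ⊗ C)) : Cok p ((𝟙_ T)⟦t⟧ ⟶ X) := by
  have hΔ := dist_whiskerLeft X h
  refine Cok.of_equiv (postEquiv _ (ρ_ X)) ?_
  have : Finite ((𝟙_ T)⟦t⟧ ⟶ X ⊗ C) := hf
  have h0 : (zsmulAddGroupHom (p : ℤ) : ((𝟙_ T)⟦t⟧ ⟶ X ⊗ 𝟙_ T) →+ _).range ≤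
      (post ((𝟙_ T)⟦t⟧) (X ◁ i)).ker := by
    rintro _ ⟨a, rfl⟩
    rw [AddMonoidHom.mem_ker]
    have h1 : (X ◁ ((p : ℤ) • 𝟙 (𝟙_ T))) ≫ (X ◁ i) = 0 := comp_distTriang_mor_zero₁₂ _ hΔ
    rw [p_whisker, Preadditive.zsmul_comp, Category.id_comp] at h1
    change ((p : ℤ) • a) ≫ (X ◁ i) = 0
    rw [Preadditive.zsmul_comp, ← Preadditive.comp_zsmul, h1, comp_zero]
  refine Finite.of_injective (QuotientAddGroup.lift _ (post ((𝟙_ T)⟦t⟧) (X ◁ i)) h0) ?_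
  rw [injective_iff_map_eq_zero]
  intro a ha
  obtain ⟨a, rfl⟩ := QuotientAddGroup.mk_surjective a
  obtain ⟨c, hc⟩ : ∃ c : (𝟙_ T)⟦t⟧ ⟶ X ⊗ 𝟙_ T, a = c ≫ (X ◁ ((p : ℤ) • 𝟙 (𝟙_ T))) :=
    Triangle.coyoneda_exact₂ _ hΔ a ha
  rw [QuotientAddGroup.eq_zero_iff]
  refine ⟨c, ?_⟩
  change (p : ℤ) • c = a
  rw [hc, p_whisker, Preadditive.comp_zsmul, Category.comp_id]

lemma GTow.one_le {p : ℕ} {N : ℤ} {V : T} (hV : GTow p N V) : 1 ≤ N := by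
  induction hV with
  | one h => exact le_rfl
  | succ H hd f j δ h ih => omega

theorem GTow.up {p : ℕ} {X : T} {a b : ℤ}
    (h : ∀ t, a ≤ t → t ≤ b → Cok p ((𝟙_ T)⟦t⟧ ⟶ X) ∧ Ker p ((𝟙_ T)⟦t⟧ ⟶ X)) {N : ℤ} {V : T}
    (hV : GTow p N V) : ∀ t, a + N ≤ t → t ≤ b → Fn t (X ⊗ V) := by
  induction hV with
  | one hC => exact fun t h1 h2 => fn_base hC (h t (by omega) h2).1 (h (t - 1) (by omega) (by omega)).2
  | @succ N d V V' H hd f j δ hΔ ih =>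
    intro t h1 h2
    have hd1 := H.one_le
    have h3 : Fn (t - 1 - d) (X ⊗ V) := ih (t - 1 - d) (by omega) (by omega)
    have h4 : Fn (t - 1) ((X ⊗ V)⟦d⟧) := fn_shift.2 h3
    have h5 : Fn (t - 1) (X ⊗ (V⟦d⟧)) := h4.of_iso (tsh X V d).symm
    exact fn_three (dist_whiskerLeft X hΔ) (ih t (by omega) h2) h5

theorem GTow.down {p : ℕ} {X : T} {a b : ℤ}
    (h : ∀ t, a ≤ t → t ≤ b → Cok p ((𝟙_ T)⟦t⟧ ⟶ X) ∧ Ker p ((𝟙_ T)⟦t⟧ ⟶ X)) {N : ℤ} {V : T}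
    (hV : GTow p N V) (hl : a + N ≤ b + 2) (hf : ∀ t : ℤ, Fn t (X ⊗ V)) :
    ∀ t : ℤ, Cok p ((𝟙_ T)⟦t⟧ ⟶ X) := by
  induction hV with
  | one hC => exact fun t => cok_base hC (hf t)
  | @succ N d V V' H hd f j δ hΔ ih =>
    refine ih (by omega) fun t => ?_
    have hΔ' := dist_whiskerLeft X hΔ
    refine periodic_all (P := fun t => Fn t (X ⊗ V)) (c := a + N) (e := b) hd (fun t => ?_)
      (by omega) (fun t h1 h2 => H.up h t h1 h2) t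
    constructor
    · intro h1
      have h2 : Fn t (X ⊗ (V⟦d⟧)) := fn_one hΔ' h1 (hf (t + 1))
      exact fn_shift.1 (h2.of_iso (tsh X V d))
    · intro h1
      have h2 : Fn t ((X ⊗ V)⟦d⟧) := fn_shift.2 h1
      have h3 : Fn t (X ⊗ (V⟦d⟧)) := h2.of_iso (tsh X V d).symm
      exact fn_two hΔ' h3 (hf t)

/-- The window theorem. -/
theorem window {p : ℕ} {K X : T} (hX : IsLocal K X) {N : ℤ} {V : T} (hV : GTow p N V)
    (hK : IsZero (K ⊗ V)) {a b : ℤ} (hl : a + N ≤ b + 2)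
    (h : ∀ t, a ≤ t → t ≤ b → Cok p ((𝟙_ T)⟦t⟧ ⟶ X) ∧ Ker p ((𝟙_ T)⟦t⟧ ⟶ X)) (t : ℤ) :
    Cok p ((𝟙_ T)⟦t⟧ ⟶ X) :=
  hV.down h hl (fun _ => Fn.of_isZero (hV.isZero hX hK)) t

end Vale.Agent.P261.H476
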