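import Vale.Agent.P261.H476.Gen
import Vale.Agent.P261.H476.Defs
import Vale.Agent.P261.H631.Defs
import Vale.Agent.P261.H180.Zp
import Vale.Agent.P261.H931.Ext

/-!
# P261: the window theorem for all primes and all heights, along towers of self maps
-/

set_option linter.unusedSectionVars false

open CategoryTheory MonoidalCategory Limits Pretriangulated MonObj

universe v u

namespace Vale.Agent.P261.H476

open Vale.Agent.P251.T Vale.Agent.P251.S

section cat

variable {T : Type u} [Category.{v} T] [Preadditive T] [HasZeroObject T] [HasShift T ℤ]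
  [∀ n : ℤ, (shiftFunctor T n).Additive] [Pretriangulated T]
  [MonoidalCategory T] [SymmetricCategory T] [TensorTriangulated T] [MonoidalClosed T]
  [HasCoproducts.{0} T]

theorem gen_window {p : ℕ} [hp : Fact p.Prime] {N : ℤ} {V : T} (hV : GTow p N V) {K X : T}
    (hK0 : (p : ℤ) • 𝟙 K = 0) (hX : ∀ W : T, IsZero (K ⊗ W) → ∀ g : W ⟶ X, g = 0)
    (hKV : IsZero (K ⊗ V)) (a : ℤ)
    (hw : ∀ t : ℤ, a ≤ t → t < a + (N - 1) → H180.FG p ((𝟙_ T)⟦t⟧ ⟶ X)) (t : ℤ) :
    H180.FG p ((𝟙_ T)⟦t⟧ ⟶ X) := by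
  refine H180.fg_of_extC (H931.extC hK0 hX t) ?_
  refine window (K := K) (a := a) (b := a + N - 2) (fun W hW g => hX W hW g) hV hKV (by omega)
    (fun t h1 h2 => ?_) t
  have h3 := hw t h1 (by omega)
  exact ⟨H180.cok_of_fg h3, H180.ker_of_fg h3⟩

lemma zsmul_id_of_unit {K : T} [MonObj K] {m : ℤ} (h : m • η[K] = 0) : m • 𝟙 K = 0 := by
  have h1 : 𝟙 K = (λ_ K).inv ≫ (η[K] ▷ K) ≫ μ[K] := by
    rw [MonObj.one_mul, Iso.inv_hom_id]
  have h2 : (m • η[K]) ▷ K = m • (η[K] ▷ K) := by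
    exact (tensorRight K).map_zsmul (f := η[K]) (r := m)
  rw [h1, ← Preadditive.comp_zsmul, ← Preadditive.zsmul_comp, ← h2, h]
  simp

end cat

open Vale.Agent.P251.St Vale.Agent.P251.St.SHCat

theorem SelfMapTower.gtow {T : SHCat} {p : ℕ} {N : ℤ} {V : T.C} (h : SelfMapTower T p N V) :
    GTow (T := T.C) p (N + 1) V := by
  induction h with
  | modp i δ h => exact GTow.one h
  | @cone N d V V' f j δ H hd h ih =>
    have := GTow.succ ih hd f j δ h
    have e : N + 1 + d + 1 = N + (d + 1) + 1 := by ring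
    rwa [e] at this

/-- The window theorem for every spectrum `K` on which `p` is zero. -/
theorem general_obj {T : SHCat} {p : ℕ} [hp : Fact p.Prime] {K X : T.C} {x : Hom T.one X}
    (hK : zmul p (ident K) = 0) (hx : Vale.Agent.P251.St.IsLoc K x) {N : ℤ} {V : T.C}
    (hV : SelfMapTower T p N V) (hKV : Vale.Agent.P251.St.Acyclic K V) (a : ℤ)
    (hw : ∀ t : ℤ, a ≤ t → t < a + N → H631.FG p (Hom (sphere T t) X)) (t : ℤ) :
    H631.FG p (Hom (sphere T t) X) :=
  gen_window (T := T.C) hV.gtow hK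
    (fun W hW g => hx.2 W ((IsZero.iff_id_eq_zero _).1 hW) g)
    ((IsZero.iff_id_eq_zero _).2 hKV) a (fun t h1 h2 => hw t h1 (by omega)) t

/-- The window theorem for every spectrum `K` on which `p` is zero and every `K`-local `X`. -/
theorem general_local {T : SHCat} {p : ℕ} [hp : Fact p.Prime] {K X : T.C}
    (hK : zmul p (ident K) = 0)
    (hX : ∀ W : T.C, Vale.Agent.P251.St.Acyclic K W → ∀ g : Hom W X, g = 0) {N : ℤ} {V : T.C}
    (hV : SelfMapTower T p N V) (hKV : Vale.Agent.P251.St.Acyclic K V) (a : ℤ)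
    (hw : ∀ t : ℤ, a ≤ t → t < a + N → H631.FG p (Hom (sphere T t) X)) (t : ℤ) :
    H631.FG p (Hom (sphere T t) X) :=
  gen_window (T := T.C) hV.gtow hK (fun W hW g => hX W ((IsZero.iff_id_eq_zero _).1 hW) g)
    ((IsZero.iff_id_eq_zero _).2 hKV) a (fun t h1 h2 => hw t h1 (by omega)) t

/-- `p` is zero on a Morava `K`-theory. -/
theorem zmul_ident {T : SHCat} {S : Susp T} {p n : ℕ} (hn : 1 ≤ n) {K : RingSp T}
    (hK : IsMorava S K p n) : zmul p (ident K.obj) = 0 := by
  have hK' : IsPeriodicField K p (2 * ((p : ℤ) ^ n - 1)) := by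
    unfold IsMorava at hK
    rw [if_neg (by omega)] at hK
    exact hK.1
  exact zsmul_id_of_unit hK'.char

/-- The window theorem for all primes and all heights. -/
theorem general {T : SHCat} {S : Susp T} {p : ℕ} [hp : Fact p.Prime] {n : ℕ} (hn : 1 ≤ n)
    {K : RingSp T} {X : T.C} {x : Hom T.one X} (hK : IsMorava S K p n)
    (hx : Vale.Agent.P251.St.IsLoc K.obj x) {N : ℤ} {V : T.C} (hV : SelfMapTower T p N V)
    (hKV : Vale.Agent.P251.St.Acyclic K.obj V) (a : ℤ)
    (hw : ∀ t : ℤ, a ≤ t → t < a + N → H631.FG p (Hom (sphere T t) X)) (t : ℤ) :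
    H631.FG p (Hom (sphere T t) X) := by
  have hK' : IsPeriodicField K p (2 * ((p : ℤ) ^ n - 1)) := by
    unfold IsMorava at hK
    rw [if_neg (by omega)] at hK
    exact hK.1
  refine gen_window (T := T.C) hV.gtow (zsmul_id_of_unit hK'.char)
    (fun W hW g => hx.2 W ((IsZero.iff_id_eq_zero _).1 hW) g)
    ((IsZero.iff_id_eq_zero _).2 hKV) a (fun t h1 h2 => hw t h1 (by omega)) t

end Vale.Agent.P261.H476
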